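import Mathlib

open MeasureTheory ProbabilityTheory Real

namespace Vale.Agent.Lib.P226

lemma int_pow_eq (n : ℕ) :
    ∫ s, s ^ n ∂(gaussianReal 0 1) = iteratedDeriv n (fun t : ℝ => rexp (t ^ 2 / 2)) 0 := by
  have h : iteratedDeriv n (mgf (fun x => x) (gaussianReal 0 1)) 0
      = ∫ s, s ^ n ∂(gaussianReal 0 1) := by
    rw [iteratedDeriv_mgf_zero] <;> simp
  rw [← h, mgf_fun_id_gaussianReal]
  simp

lemma d1 : deriv (fun t : ℝ => rexp (t ^ 2 / 2)) = fun t => t * rexp (t ^ 2 / 2) := by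
  ext t
  have : HasDerivAt (fun t : ℝ => rexp (t ^ 2 / 2)) (rexp (t ^ 2 / 2) * (2 * t / 2)) t := by
    apply HasDerivAt.exp
    apply HasDerivAt.div_const
    simpa using hasDerivAt_pow 2 t
  rw [this.deriv]
  ring

lemma hd_exp (t : ℝ) : HasDerivAt (fun t : ℝ => rexp (t ^ 2 / 2)) (t * rexp (t ^ 2 / 2)) t := by
  have : HasDerivAt (fun t : ℝ => rexp (t ^ 2 / 2)) (rexp (t ^ 2 / 2) * (2 * t / 2)) t := by
    apply HasDerivAt.exp
    apply HasDerivAt.div_const
    simpa using hasDerivAt_pow 2 t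
  convert this using 1
  ring

lemma d2 : deriv (fun t : ℝ => t * rexp (t ^ 2 / 2)) = fun t => (1 + t ^ 2) * rexp (t ^ 2 / 2) := by
  ext t
  have := (hasDerivAt_id t).mul (hd_exp t)
  have h2 : HasDerivAt (fun t : ℝ => t * rexp (t ^ 2 / 2))
      (1 * rexp (t ^ 2 / 2) + t * (t * rexp (t ^ 2 / 2))) t := this
  rw [h2.deriv]
  ring

lemma d3 : deriv (fun t : ℝ => (1 + t ^ 2) * rexp (t ^ 2 / 2))
    = fun t => (3 * t + t ^ 3) * rexp (t ^ 2 / 2) := by
  ext t
  have h1 : HasDerivAt (fun t : ℝ => 1 + t ^ 2) (2 * t) t := by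
    simpa using (hasDerivAt_pow 2 t).const_add 1
  have h2 : HasDerivAt (fun t : ℝ => (1 + t ^ 2) * rexp (t ^ 2 / 2))
      (2 * t * rexp (t ^ 2 / 2) + (1 + t ^ 2) * (t * rexp (t ^ 2 / 2))) t := h1.mul (hd_exp t)
  rw [h2.deriv]
  ring

lemma d4 : deriv (fun t : ℝ => (3 * t + t ^ 3) * rexp (t ^ 2 / 2))
    = fun t => (3 + 6 * t ^ 2 + t ^ 4) * rexp (t ^ 2 / 2) := by
  ext t
  have h1 : HasDerivAt (fun t : ℝ => 3 * t + t ^ 3) (3 + 3 * t ^ 2) t := by
    have a : HasDerivAt (fun t : ℝ => 3 * t) (3 * 1) t := (hasDerivAt_id t).const_mul 3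
    have b : HasDerivAt (fun t : ℝ => t ^ 3) (3 * t ^ 2) t := by simpa using hasDerivAt_pow 3 t
    have c : HasDerivAt (fun t : ℝ => 3 * t + t ^ 3) (3 * 1 + 3 * t ^ 2) t := a.add b
    simpa using c
  have h2 : HasDerivAt (fun t : ℝ => (3 * t + t ^ 3) * rexp (t ^ 2 / 2))
      ((3 + 3 * t ^ 2) * rexp (t ^ 2 / 2) + (3 * t + t ^ 3) * (t * rexp (t ^ 2 / 2))) t :=
    h1.mul (hd_exp t)
  rw [h2.deriv]
  ring

lemma int_sq : ∫ s, s ^ 2 ∂(gaussianReal 0 1) = 1 := by
  rw [int_pow_eq, iteratedDeriv_succ, iteratedDeriv_one, d1, d2]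
  simp

lemma int_four : ∫ s, s ^ 4 ∂(gaussianReal 0 1) = 3 := by
  rw [int_pow_eq, iteratedDeriv_succ, iteratedDeriv_succ, iteratedDeriv_succ, iteratedDeriv_one,
    d1, d2, d3, d4]
  simp

lemma integrable_pow (n : ℕ) : Integrable (fun s : ℝ => s ^ n) (gaussianReal 0 1) := by
  rcases Nat.eq_zero_or_pos n with h | h
  · subst h
    simp
  have := (memLp_id_gaussianReal (μ := 0) (v := 1) (n : NNReal)).integrable_norm_pow
    (p := n) (by exact_mod_cast h.ne')
  have h2 : Integrable (fun s : ℝ => |s| ^ n) (gaussianReal 0 1) := by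
    simpa using this
  refine h2.mono' (by fun_prop) ?_
  filter_upwards with s
  rw [norm_pow, Real.norm_eq_abs]

lemma integrable_pos_pow (n : ℕ) : Integrable (fun s : ℝ => (max s 0) ^ n) (gaussianReal 0 1) := by
  have h2 : Integrable (fun s : ℝ => |s ^ n|) (gaussianReal 0 1) := (integrable_pow n).abs
  refine h2.mono' (by fun_prop) ?_
  filter_upwards with s
  rw [norm_pow, Real.norm_eq_abs, abs_pow]
  apply pow_le_pow_left₀ (abs_nonneg _)
  rw [abs_of_nonneg (le_max_right _ _)]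
  exact max_le (le_abs_self s) (abs_nonneg s)

lemma int_pos_half (k : ℕ) (hk : 0 < k) :
    ∫ s, (max s 0) ^ (2 * k) ∂(gaussianReal 0 1)
      = (∫ s, s ^ (2 * k) ∂(gaussianReal 0 1)) / 2 := by
  have hsplit : ∀ s : ℝ, s ^ (2 * k) = (max s 0) ^ (2 * k) + (max (-s) 0) ^ (2 * k) := by
    intro s
    have hk2 : 2 * k ≠ 0 := by omega
    rcases le_total 0 s with h | h
    · rw [max_eq_left h, max_eq_right (by linarith), zero_pow hk2, add_zero]
    · rw [max_eq_right h, max_eq_left (by linarith), zero_pow hk2, zero_add,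
        Even.neg_pow (even_two_mul k)]
  have hneg : ∫ s, (max (-s) 0) ^ (2 * k) ∂(gaussianReal 0 1)
      = ∫ s, (max s 0) ^ (2 * k) ∂(gaussianReal 0 1) := by
    have hmap : (gaussianReal 0 1).map (fun x : ℝ => -x) = gaussianReal 0 1 := by
      rw [gaussianReal_map_neg]
      simp
    calc ∫ s, (max (-s) 0) ^ (2 * k) ∂(gaussianReal 0 1)
        = ∫ s, (max s 0) ^ (2 * k) ∂((gaussianReal 0 1).map (fun x : ℝ => -x)) := by
          rw [integral_map (by fun_prop) (by fun_prop)]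
      _ = _ := by rw [hmap]
  have hint2 : Integrable (fun s : ℝ => (max (-s) 0) ^ (2 * k)) (gaussianReal 0 1) := by
    have hmap : (gaussianReal 0 1).map (fun x : ℝ => -x) = gaussianReal 0 1 := by
      rw [gaussianReal_map_neg]
      simp
    have := integrable_pos_pow (2 * k)
    rw [← hmap] at this
    exact (integrable_map_measure (f := fun x : ℝ => -x) (g := fun s : ℝ => (max s 0) ^ (2 * k))
      (by fun_prop) (by fun_prop)).1 this
  have : ∫ s, s ^ (2 * k) ∂(gaussianReal 0 1)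
      = ∫ s, (max s 0) ^ (2 * k) ∂(gaussianReal 0 1)
        + ∫ s, (max (-s) 0) ^ (2 * k) ∂(gaussianReal 0 1) := by
    rw [← integral_add (integrable_pos_pow _) hint2]
    apply integral_congr_ae
    filter_upwards with s
    exact hsplit s
  rw [this, hneg]
  ring

lemma int_pos_sq : ∫ s, (max s 0) ^ 2 ∂(gaussianReal 0 1) = 1 / 2 := by
  have := int_pos_half 1 one_pos
  simp only [mul_one] at this
  rw [this, int_sq]

lemma int_pos_four : ∫ s, (max s 0) ^ 4 ∂(gaussianReal 0 1) = 3 / 2 := by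
  have := int_pos_half 2 two_pos
  norm_num at this
  rw [this, int_four]

end Vale.Agent.Lib.P226
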