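import Mathlib
import Vale.Agent.Lib.P226.Moments

open MeasureTheory ProbabilityTheory Real

namespace Vale.Agent.Lib.P226

/-- Cauchy-Schwarz on a measurable set. -/
lemma cs_set {Ω : Type*} [MeasurableSpace Ω] (μ : Measure Ω) [IsFiniteMeasure μ] (A : Set Ω)
    (f : Ω → ℝ) (hf : Integrable f μ) (hf2 : Integrable (fun x => f x ^ 2) μ) :
    (∫ x in A, f x ∂μ) ^ 2 ≤ μ.real A * ∫ x in A, f x ^ 2 ∂μ := by
  set a := ∫ x in A, f x ∂μ with ha
  set b := ∫ x in A, f x ^ 2 ∂μ with hb
  set p := μ.real A with hp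
  have hp0 : 0 ≤ p := measureReal_nonneg
  have key : ∀ l : ℝ, 0 ≤ b - 2 * l * a + l ^ 2 * p := by
    intro l
    have h1 : 0 ≤ ∫ x in A, (f x - l) ^ 2 ∂μ := integral_nonneg (fun x => sq_nonneg _)
    have h2 : ∫ x in A, (f x - l) ^ 2 ∂μ = b - 2 * l * a + l ^ 2 * p := by
      have e : ∀ x, (f x - l) ^ 2 = f x ^ 2 - 2 * l * f x + l ^ 2 := fun x => by ring
      simp only [e]
      rw [integral_add (by exact (hf2.integrableOn.sub (hf.integrableOn.const_mul _)))
        (integrable_const _), integral_sub hf2.integrableOn (hf.integrableOn.const_mul _),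
        integral_const_mul, integral_const]
      simp only [measureReal_restrict_apply_univ, smul_eq_mul]
      rw [hp]
      ring
    rw [← h2]
    exact h1
  rcases hp0.lt_or_eq with hpos | hzero
  · have := key (a / p)
    have e : b - 2 * (a / p) * a + (a / p) ^ 2 * p = b - a ^ 2 / p := by
      field_simp
      ring
    rw [e] at this
    have h3 : a ^ 2 / p ≤ b := by linarith
    rw [div_le_iff₀ hpos] at h3
    linarith
  · rw [← hzero, zero_mul]
    have h1 := key a
    have h2 := key (-a)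
    have hb0 : 0 ≤ b := integral_nonneg (fun x => sq_nonneg _)
    rw [← hzero] at h1 h2
    -- measure zero set
    have hμ : μ A = 0 := by
      have : μ.real A = 0 := by rw [← hp]; exact hzero.symm
      rwa [measureReal_eq_zero_iff] at this
    have : a = 0 := by
      rw [ha, Measure.restrict_eq_zero.2 hμ]
      simp
    rw [this]
    simp

variable {E : Type*} [NormedAddCommGroup E] [InnerProductSpace ℝ E] [FiniteDimensional ℝ E]
  [MeasurableSpace E] [BorelSpace E]

lemma law_unit (e : E) (he : ‖e‖ = 1) :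
    (stdGaussian E).map (fun x => (inner ℝ e x : ℝ)) = gaussianReal 0 1 := by
  have := IsGaussian.map_eq_gaussianReal (μ := stdGaussian E) (innerSL ℝ e)
  rw [integral_strongDual_stdGaussian, variance_dual_stdGaussian, innerSL_apply_norm, he] at this
  simpa using this

lemma moment_bounds (e : E) (he : ‖e‖ = 1) (A : Set E) :
    (∫ x in A, (inner ℝ e x : ℝ) ∂(stdGaussian E)) ≤
      ∫ x in A, max (inner ℝ e x : ℝ) 0 ∂(stdGaussian E) ∧
    (∫ x in A, max (inner ℝ e x : ℝ) 0 ∂(stdGaussian E)) ^ 2 ≤ (stdGaussian E).real A / 2 ∧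
    (∫ x in A, max (inner ℝ e x : ℝ) 0 ∂(stdGaussian E)) ^ 4
      ≤ 3 / 2 * (stdGaussian E).real A ^ 3 := by
  set γ := stdGaussian E with hγ
  set g : E → ℝ := fun x => max (inner ℝ e x : ℝ) 0 with hg
  have hlaw := law_unit e he
  have hmeas : Measurable (fun x : E => (inner ℝ e x : ℝ)) := by fun_prop
  have hint : ∀ n : ℕ, Integrable (fun x => g x ^ n) γ := by
    intro n
    have := integrable_pos_pow n
    rw [← hlaw] at this
    exact (integrable_map_measure (f := fun x : E => (inner ℝ e x : ℝ))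
      (g := fun s : ℝ => (max s 0) ^ n) (by fun_prop) hmeas.aemeasurable).1 this
  have hval : ∀ n : ℕ, ∫ x, g x ^ n ∂γ = ∫ s, (max s 0) ^ n ∂(gaussianReal 0 1) := by
    intro n
    rw [← hlaw, integral_map hmeas.aemeasurable (by fun_prop)]
  have hg1 : Integrable g γ := by simpa using hint 1
  have hlin : Integrable (fun x : E => (inner ℝ e x : ℝ)) γ := by
    have := integrable_pow 1
    rw [← hlaw] at this
    have h2 := (integrable_map_measure (f := fun x : E => (inner ℝ e x : ℝ))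
      (g := fun s : ℝ => s ^ 1) (by fun_prop) hmeas.aemeasurable).1 this
    refine h2.congr ?_
    filter_upwards with x
    simp
  set p := γ.real A with hp
  have hp0 : 0 ≤ p := measureReal_nonneg
  have hg0 : ∀ x, 0 ≤ g x := fun x => le_max_right _ _
  have c1 := cs_set γ A g hg1 (hint 2)
  have c2 := cs_set γ A (fun x => g x ^ 2) (hint 2) (by
    have := hint 4
    refine this.congr ?_
    filter_upwards with x
    ring)
  have m2 : ∫ x in A, g x ^ 2 ∂γ ≤ 1 / 2 := by
    rw [← int_pos_sq, ← hval 2]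
    exact setIntegral_le_integral (hint 2) (Filter.Eventually.of_forall (fun x => by positivity))
  have m4 : ∫ x in A, (g x ^ 2) ^ 2 ∂γ ≤ 3 / 2 := by
    have e4 : ∀ x, (g x ^ 2) ^ 2 = g x ^ 4 := fun x => by ring
    simp only [e4]
    rw [← int_pos_four, ← hval 4]
    exact setIntegral_le_integral (hint 4) (Filter.Eventually.of_forall (fun x => by positivity))
  refine ⟨?_, ?_, ?_⟩
  · exact setIntegral_mono hlin.integrableOn hg1.integrableOn (fun x => le_max_left _ _)
  · calc (∫ x in A, g x ∂γ) ^ 2 ≤ p * ∫ x in A, g x ^ 2 ∂γ := c1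
      _ ≤ p * (1 / 2) := mul_le_mul_of_nonneg_left m2 hp0
      _ = p / 2 := by ring
  · have hb0 : 0 ≤ ∫ x in A, g x ^ 2 ∂γ := integral_nonneg (fun x => by positivity)
    calc (∫ x in A, g x ∂γ) ^ 4 = ((∫ x in A, g x ∂γ) ^ 2) ^ 2 := by ring
      _ ≤ (p * ∫ x in A, g x ^ 2 ∂γ) ^ 2 := pow_le_pow_left₀ (sq_nonneg _) c1 2
      _ = p ^ 2 * (∫ x in A, g x ^ 2 ∂γ) ^ 2 := by ring
      _ ≤ p ^ 2 * (p * ∫ x in A, (g x ^ 2) ^ 2 ∂γ) :=
          mul_le_mul_of_nonneg_left c2 (sq_nonneg _)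
      _ ≤ p ^ 2 * (p * (3 / 2)) := by
          apply mul_le_mul_of_nonneg_left _ (sq_nonneg _)
          exact mul_le_mul_of_nonneg_left m4 hp0
      _ = 3 / 2 * p ^ 3 := by ring

/-- bounds for the Gaussian first moment of a set. -/
lemma first_moment (A : Set E) :
    ‖∫ x in A, x ∂(stdGaussian E)‖ ^ 2 ≤ (stdGaussian E).real A / 2 ∧
    ‖∫ x in A, x ∂(stdGaussian E)‖ ^ 4 ≤ 3 / 2 * (stdGaussian E).real A ^ 3 := by
  set γ := stdGaussian E with hγ
  set v := ∫ x in A, x ∂γ with hv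
  have hp0 : 0 ≤ γ.real A := measureReal_nonneg
  by_cases hv0 : v = 0
  · rw [hv0]
    simp only [norm_zero]
    constructor
    · have : (0 : ℝ) ^ 2 = 0 := by norm_num
      rw [this]
      positivity
    · have : (0 : ℝ) ^ 4 = 0 := by norm_num
      rw [this]
      positivity
  have hpos : 0 < ‖v‖ := norm_pos_iff.2 hv0
  set e := (‖v‖⁻¹) • v with he
  have he1 : ‖e‖ = 1 := by
    rw [he, norm_smul, norm_inv, norm_norm, inv_mul_cancel₀ hpos.ne']
  have hid : Integrable (fun x : E => x) γ := IsGaussian.integrable_id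
  have hnorm : ‖v‖ = ∫ x in A, (inner ℝ e x : ℝ) ∂γ := by
    rw [integral_inner hid.integrableOn e, ← hv, he, inner_smul_left, real_inner_self_eq_norm_sq]
    simp only [conj_trivial]
    field_simp
  obtain ⟨b1, b2, b3⟩ := moment_bounds e he1 A
  have hle : ‖v‖ ≤ ∫ x in A, max (inner ℝ e x : ℝ) 0 ∂γ := by rw [hnorm]; exact b1
  exact ⟨(pow_le_pow_left₀ hpos.le hle 2).trans b2, (pow_le_pow_left₀ hpos.le hle 4).trans b3⟩

lemma first_moment_compl {A : Set E} (hA : MeasurableSet A) :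
    ‖∫ x in A, x ∂(stdGaussian E)‖ ^ 2 ≤ (1 - (stdGaussian E).real A) / 2 := by
  have hid : Integrable (fun x : E => x) (stdGaussian E) := IsGaussian.integrable_id
  have h1 := integral_add_compl hA hid
  rw [integral_id_stdGaussian] at h1
  have h2 : ∫ x in A, x ∂(stdGaussian E) = -∫ x in Aᶜ, x ∂(stdGaussian E) :=
    eq_neg_of_add_eq_zero_left h1
  rw [h2, norm_neg]
  have h3 := (first_moment (E := E) Aᶜ).1
  rwa [probReal_compl_eq_one_sub hA] at h3

lemma sum_real_le_one {k : ℕ} (A : Fin k → Set E) (hA : ∀ i, MeasurableSet (A i))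
    (hdisj : Pairwise (Function.onFun Disjoint A)) (s : Finset (Fin k)) :
    ∑ i ∈ s, (stdGaussian E).real (A i) ≤ 1 := by
  rw [← measureReal_biUnion_finset (fun i _ j _ hij => hdisj hij) (fun i _ => hA i)]
  exact measureReal_le_one

theorem universal {k : ℕ} (A : Fin k → Set E) (hA : ∀ i, MeasurableSet (A i))
    (hdisj : Pairwise (Function.onFun Disjoint A)) :
    ∑ i, ‖∫ x in A i, x ∂(stdGaussian E)‖ ^ 2 ≤ 1 / 2 := by
  calc ∑ i, ‖∫ x in A i, x ∂(stdGaussian E)‖ ^ 2
      ≤ ∑ i, (stdGaussian E).real (A i) / 2 := Finset.sum_le_sum (fun i _ => (first_moment _).1)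
    _ = (∑ i, (stdGaussian E).real (A i)) / 2 := by rw [Finset.sum_div]
    _ ≤ 1 / 2 := by
        have := sum_real_le_one A hA hdisj Finset.univ
        linarith

theorem big_cell {k : ℕ} (A : Fin k → Set E) (hA : ∀ i, MeasurableSet (A i))
    (hdisj : Pairwise (Function.onFun Disjoint A)) (i0 : Fin k) :
    ∑ i, ‖∫ x in A i, x ∂(stdGaussian E)‖ ^ 2 ≤ 1 - (stdGaussian E).real (A i0) := by
  classical
  rw [← Finset.add_sum_erase Finset.univ _ (Finset.mem_univ i0)]
  have h1 := first_moment_compl (hA i0)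
  have h2 : ∑ i ∈ Finset.univ.erase i0, ‖∫ x in A i, x ∂(stdGaussian E)‖ ^ 2
      ≤ (∑ i ∈ Finset.univ.erase i0, (stdGaussian E).real (A i)) / 2 := by
    rw [Finset.sum_div]
    exact Finset.sum_le_sum (fun i _ => (first_moment _).1)
  have h3 := sum_real_le_one A hA hdisj Finset.univ
  rw [← Finset.add_sum_erase Finset.univ _ (Finset.mem_univ i0)] at h3
  linarith

theorem small_cells {k : ℕ} (A : Fin k → Set E) (hA : ∀ i, MeasurableSet (A i))
    (hdisj : Pairwise (Function.onFun Disjoint A))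
    (hsmall : ∀ i, (stdGaussian E).real (A i) ≤ 1 / 12) :
    ∑ i, ‖∫ x in A i, x ∂(stdGaussian E)‖ ^ 2 ≤ 9 / (8 * π) := by
  set c : ℝ := 9 / (8 * π) with hc
  have hπ := Real.pi_pos
  have hc0 : 0 < c := by positivity
  have hc2 : 1 / 8 ≤ c ^ 2 := by
    have h1 : π < 3.15 := Real.pi_lt_d2
    have h2 : π ^ 2 ≤ 81 / 8 := by nlinarith
    rw [hc, div_pow, le_div_iff₀ (by positivity)]
    nlinarith
  have hcell : ∀ i, ‖∫ x in A i, x ∂(stdGaussian E)‖ ^ 2 ≤ c * (stdGaussian E).real (A i) := by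
    intro i
    set p := (stdGaussian E).real (A i) with hp
    have hp0 : 0 ≤ p := measureReal_nonneg
    have h4 := (first_moment (E := E) (A i)).2
    have h5 : (‖∫ x in A i, x ∂(stdGaussian E)‖ ^ 2) ^ 2 ≤ (c * p) ^ 2 := by
      calc (‖∫ x in A i, x ∂(stdGaussian E)‖ ^ 2) ^ 2
          = ‖∫ x in A i, x ∂(stdGaussian E)‖ ^ 4 := by ring
        _ ≤ 3 / 2 * p ^ 3 := h4
        _ = (3 / 2 * p) * p ^ 2 := by ring
        _ ≤ (1 / 8) * p ^ 2 := by
            apply mul_le_mul_of_nonneg_right _ (sq_nonneg _)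
            have := hsmall i
            linarith
        _ ≤ c ^ 2 * p ^ 2 := mul_le_mul_of_nonneg_right hc2 (sq_nonneg _)
        _ = (c * p) ^ 2 := by ring
    exact (pow_le_pow_iff_left₀ (sq_nonneg _) (by positivity) (by norm_num)).1 h5
  calc ∑ i, ‖∫ x in A i, x ∂(stdGaussian E)‖ ^ 2
      ≤ ∑ i, c * (stdGaussian E).real (A i) := Finset.sum_le_sum (fun i _ => hcell i)
    _ = c * ∑ i, (stdGaussian E).real (A i) := by rw [Finset.mul_sum]
    _ ≤ c * 1 := mul_le_mul_of_nonneg_left (sum_real_le_one A hA hdisj Finset.univ) hc0.le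
    _ = c := mul_one c

end Vale.Agent.Lib.P226
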