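import Mathlib
import Vale.Agent.Lib.P226.Main

open MeasureTheory ProbabilityTheory Real

namespace Vale.Agent.Lib.P226

variable {E : Type*} [NormedAddCommGroup E] [InnerProductSpace ℝ E]

/-- greedy grouping of vectors into `m` groups. -/
lemma grouping {k m : ℕ} (hm : 0 < m) (z : Fin k → E) (s : Finset (Fin k)) :
    ∃ σ : Fin k → Fin m,
      (1 - 1 / (m : ℝ)) * ∑ i ∈ s, ‖z i‖ ^ 2 + 1 / (m : ℝ) * ‖∑ i ∈ s, z i‖ ^ 2
        ≤ ∑ j, ‖∑ i ∈ s with σ i = j, z i‖ ^ 2 := by
  classical
  have hm' : (0 : ℝ) < m := by exact_mod_cast hm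
  haveI : Nonempty (Fin m) := ⟨⟨0, hm⟩⟩
  induction s using Finset.induction_on with
  | empty =>
    refine ⟨fun _ => ⟨0, hm⟩, ?_⟩
    simp
  | insert a s ha ih =>
    obtain ⟨σ, hσ⟩ := ih
    set w : Fin m → E := fun j => ∑ i ∈ s with σ i = j, z i with hw
    have hW : ∑ j, w j = ∑ i ∈ s, z i := Finset.sum_fiberwise s σ z
    -- best group
    obtain ⟨j0, _, hj0⟩ := Finset.exists_max_image Finset.univ (fun j => (inner ℝ (z a) (w j) : ℝ))
      Finset.univ_nonempty
    have havg : (inner ℝ (z a) (∑ i ∈ s, z i) : ℝ) ≤ m * inner ℝ (z a) (w j0) := by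
      rw [← hW, inner_sum]
      calc ∑ j, (inner ℝ (z a) (w j) : ℝ) ≤ ∑ _j : Fin m, (inner ℝ (z a) (w j0) : ℝ) :=
            Finset.sum_le_sum (fun j hj => hj0 j hj)
        _ = m * inner ℝ (z a) (w j0) := by simp
    refine ⟨Function.update σ a j0, ?_⟩
    have hnew : ∀ j, ∑ i ∈ insert a s with Function.update σ a j0 i = j, z i
        = w j + (if j = j0 then z a else 0) := by
      intro j
      rw [Finset.filter_insert]
      have hrest : (s.filter (fun i => Function.update σ a j0 i = j)) = s.filter (fun i => σ i = j) := by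
        apply Finset.filter_congr
        intro i hi
        have : i ≠ a := fun h => ha (h ▸ hi)
        rw [Function.update_of_ne this]
      by_cases hj : j = j0
      · subst hj
        simp only [Function.update_self, if_true]
        rw [Finset.sum_insert (by simp [ha]), hrest, add_comm]
      · have : ¬ (Function.update σ a j0 a = j) := by
          rw [Function.update_self]
          exact fun h => hj h.symm
        rw [if_neg this, if_neg hj, hrest, add_zero]
    simp only [hnew]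
    have hsum : ∑ j, ‖w j + (if j = j0 then z a else 0)‖ ^ 2
        = ∑ j, ‖w j‖ ^ 2 + (‖z a‖ ^ 2 + 2 * inner ℝ (z a) (w j0)) := by
      have : ∀ j, ‖w j + (if j = j0 then z a else 0)‖ ^ 2
          = ‖w j‖ ^ 2 + (if j = j0 then ‖z a‖ ^ 2 + 2 * inner ℝ (z a) (w j0) else 0) := by
        intro j
        by_cases hj : j = j0
        · subst hj
          simp only [if_true]
          rw [norm_add_sq_real, real_inner_comm]
          ring
        · simp [hj]
      simp only [this, Finset.sum_add_distrib, Finset.sum_ite_eq', Finset.mem_univ, if_true]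
    rw [hsum, Finset.sum_insert ha, Finset.sum_insert ha, norm_add_sq_real]
    have h1 : 1 / (m : ℝ) * (2 * inner ℝ (z a) (∑ i ∈ s, z i)) ≤ 2 * inner ℝ (z a) (w j0) := by
      rw [div_mul_eq_mul_div, one_mul, div_le_iff₀ hm']
      linarith
    have e : (1 - 1 / (m : ℝ)) * (‖z a‖ ^ 2 + ∑ i ∈ s, ‖z i‖ ^ 2)
        + 1 / (m : ℝ) * (‖z a‖ ^ 2 + 2 * inner ℝ (z a) (∑ i ∈ s, z i) + ‖∑ i ∈ s, z i‖ ^ 2)
        = ((1 - 1 / (m : ℝ)) * ∑ i ∈ s, ‖z i‖ ^ 2 + 1 / (m : ℝ) * ‖∑ i ∈ s, z i‖ ^ 2)
          + ‖z a‖ ^ 2 + 1 / (m : ℝ) * (2 * inner ℝ (z a) (∑ i ∈ s, z i)) := by ring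
    rw [e]
    linarith

variable [FiniteDimensional ℝ E] [MeasurableSpace E] [BorelSpace E]

/-- merging cells: a bound for `m` cells gives a bound for any number of cells. -/
theorem merge {k m : ℕ} (hm : 0 < m) (c : ℝ)
    (hc : ∀ G : Fin m → Set E, (∀ j, MeasurableSet (G j)) →
      Pairwise (Function.onFun Disjoint G) →
      ∑ j, ‖∫ x in G j, x ∂(stdGaussian E)‖ ^ 2 ≤ c)
    (A : Fin k → Set E) (hA : ∀ i, MeasurableSet (A i))
    (hdisj : Pairwise (Function.onFun Disjoint A)) :
    (1 - 1 / (m : ℝ)) * ∑ i, ‖∫ x in A i, x ∂(stdGaussian E)‖ ^ 2 ≤ c := by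
  classical
  have hm' : (0 : ℝ) < m := by exact_mod_cast hm
  obtain ⟨σ, hσ⟩ := grouping hm (fun i => ∫ x in A i, x ∂(stdGaussian E)) Finset.univ
  set G : Fin m → Set E := fun j => ⋃ i ∈ Finset.univ.filter (fun i => σ i = j), A i with hG
  have hGm : ∀ j, MeasurableSet (G j) := fun j =>
    Finset.measurableSet_biUnion _ (fun i _ => hA i)
  have hGd : Pairwise (Function.onFun Disjoint G) := by
    intro j j' hjj'
    rw [Function.onFun, Set.disjoint_left]
    intro x hx hx'
    simp only [hG, Set.mem_iUnion, Finset.mem_filter, Finset.mem_univ, true_and] at hx hx'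
    obtain ⟨i, hi, hxi⟩ := hx
    obtain ⟨i', hi', hxi'⟩ := hx'
    have hne : i ≠ i' := by
      intro h
      apply hjj'
      rw [← hi, ← hi', h]
    exact Set.disjoint_left.1 (hdisj hne) hxi hxi'
  have hid : Integrable (fun x : E => x) (stdGaussian E) := IsGaussian.integrable_id
  have hGz : ∀ j, ∫ x in G j, x ∂(stdGaussian E)
      = ∑ i ∈ Finset.univ.filter (fun i => σ i = j), ∫ x in A i, x ∂(stdGaussian E) := by
    intro j
    apply integral_biUnion_finset
    · intro i _
      exact hA i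
    · intro i _ i' _ hne
      exact hdisj hne
    · intro i _
      exact hid.integrableOn
  have h1 := hc G hGm hGd
  simp only [hGz] at h1
  have h2 : 0 ≤ 1 / (m : ℝ) * ‖∑ i, ∫ x in A i, x ∂(stdGaussian E)‖ ^ 2 := by positivity
  linarith

end Vale.Agent.Lib.P226
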